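import Vale.Agent.P021Q.Data

namespace Vale.Agent.P021.Det.Q

open Vale.Agent.P021.Det

set_option maxRecDepth 100000

/-- subdivision 0_9 -/
def part0_9 : List ℕ :=
  [812, 817, 822, 834]

theorem chk0_9 : runSegm cfs 12000 26000 52000 clev 0 (0, 0) (0, 1328) 805 part0_9 = true := by
  decide +kernel

/-- subdivision 0_10 -/
def part0_10 : List ℕ :=
  [839, 845, 850, 861]

theorem chk0_10 : runSegm cfs 12000 26000 52000 clev 0 (0, 0) (0, 1328) 834 part0_10 = true := by
  decide +kernel

/-- subdivision 0_11 -/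
def part0_11 : List ℕ :=
  [866, 871, 876, 889]

theorem chk0_11 : runSegm cfs 12000 26000 52000 clev 0 (0, 0) (0, 1328) 861 part0_11 = true := by
  decide +kernel

/-- subdivision 0_12 -/
def part0_12 : List ℕ :=
  [894, 899, 905, 918]

theorem chk0_12 : runSegm cfs 12000 26000 52000 clev 0 (0, 0) (0, 1328) 889 part0_12 = true := by
  decide +kernel

/-- subdivision 0_13 -/
def part0_13 : List ℕ :=
  [926, 933, 950, 957]

theorem chk0_13 : runSegm cfs 12000 26000 52000 clev 0 (0, 0) (0, 1328) 918 part0_13 = true := by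
  decide +kernel

/-- subdivision 0_14 -/
def part0_14 : List ℕ :=
  [965, 977, 991, 1000]

theorem chk0_14 : runSegm cfs 12000 26000 52000 clev 0 (0, 0) (0, 1328) 957 part0_14 = true := by
  decide +kernel

/-- subdivision 0_15 -/
def part0_15 : List ℕ :=
  [1010, 1024]

theorem chk0_15 : runSegm cfs 12000 26000 52000 clev 0 (0, 0) (0, 1328) 1000 part0_15 = true := by
  decide +kernel

/-- subdivision 1_0 -/
def part1_0 : List ℕ :=
  [45, 68, 89, 119]

theorem chk1_0 : runSegm cfs 12000 26000 52000 clev 0 (0, 1328) (-532, 1690) 0 part1_0 = true := by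
  decide +kernel

/-- subdivision 1_1 -/
def part1_1 : List ℕ :=
  [147, 164, 175, 201]

theorem chk1_1 : runSegm cfs 12000 26000 52000 clev 0 (0, 1328) (-532, 1690) 119 part1_1 = true := by
  decide +kernel

end Vale.Agent.P021.Det.Q
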