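import Vale.Agent.P021Q.Data

namespace Vale.Agent.P021.Det.Q

open Vale.Agent.P021.Det

set_option maxRecDepth 100000

/-- subdivision 1_2 -/
def part1_2 : List ℕ :=
  [212, 226, 246, 268]

theorem chk1_2 : runSegm cfs 12000 26000 52000 clev 0 (0, 1328) (-532, 1690) 201 part1_2 = true := by
  decide +kernel

/-- subdivision 1_3 -/
def part1_3 : List ℕ :=
  [280, 290, 314, 323]

theorem chk1_3 : runSegm cfs 12000 26000 52000 clev 0 (0, 1328) (-532, 1690) 268 part1_3 = true := by
  decide +kernel

/-- subdivision 1_4 -/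
def part1_4 : List ℕ :=
  [333, 353, 364, 373]

theorem chk1_4 : runSegm cfs 12000 26000 52000 clev 0 (0, 1328) (-532, 1690) 323 part1_4 = true := by
  decide +kernel

/-- subdivision 1_5 -/
def part1_5 : List ℕ :=
  [382, 405, 416, 426]

theorem chk1_5 : runSegm cfs 12000 26000 52000 clev 0 (0, 1328) (-532, 1690) 373 part1_5 = true := by
  decide +kernel

/-- subdivision 1_6 -/
def part1_6 : List ℕ :=
  [446, 454, 462, 474]

theorem chk1_6 : runSegm cfs 12000 26000 52000 clev 0 (0, 1328) (-532, 1690) 426 part1_6 = true := by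
  decide +kernel

/-- subdivision 1_7 -/
def part1_7 : List ℕ :=
  [487, 495, 502, 517]

theorem chk1_7 : runSegm cfs 12000 26000 52000 clev 0 (0, 1328) (-532, 1690) 474 part1_7 = true := by
  decide +kernel

/-- subdivision 1_8 -/
def part1_8 : List ℕ :=
  [527, 537, 545, 561]

theorem chk1_8 : runSegm cfs 12000 26000 52000 clev 0 (0, 1328) (-532, 1690) 517 part1_8 = true := by
  decide +kernel

/-- subdivision 1_9 -/
def part1_9 : List ℕ :=
  [569, 576, 594, 600]

theorem chk1_9 : runSegm cfs 12000 26000 52000 clev 0 (0, 1328) (-532, 1690) 561 part1_9 = true := by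
  decide +kernel

/-- subdivision 1_10 -/
def part1_10 : List ℕ :=
  [608, 618, 630, 638]

theorem chk1_10 : runSegm cfs 12000 26000 52000 clev 0 (0, 1328) (-532, 1690) 600 part1_10 = true := by
  decide +kernel

end Vale.Agent.P021.Det.Q
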