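import Vale.Agent.P021Q.Data

namespace Vale.Agent.P021.Det.Q

open Vale.Agent.P021.Det

set_option maxRecDepth 100000

/-- subdivision 1_11 -/
def part1_11 : List ℕ :=
  [645, 661, 667, 674]

theorem chk1_11 : runSegm cfs 12000 26000 52000 clev 0 (0, 1328) (-532, 1690) 638 part1_11 = true := by
  decide +kernel

/-- subdivision 1_12 -/
def part1_12 : List ℕ :=
  [683, 695, 700, 706]

theorem chk1_12 : runSegm cfs 12000 26000 52000 clev 0 (0, 1328) (-532, 1690) 674 part1_12 = true := by
  decide +kernel

/-- subdivision 1_13 -/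
def part1_13 : List ℕ :=
  [717, 726, 735, 741]

theorem chk1_13 : runSegm cfs 12000 26000 52000 clev 0 (0, 1328) (-532, 1690) 706 part1_13 = true := by
  decide +kernel

/-- subdivision 1_14 -/
def part1_14 : List ℕ :=
  [756, 762, 769, 782]

theorem chk1_14 : runSegm cfs 12000 26000 52000 clev 0 (0, 1328) (-532, 1690) 741 part1_14 = true := by
  decide +kernel

/-- subdivision 1_15 -/
def part1_15 : List ℕ :=
  [788, 796, 802, 814]

theorem chk1_15 : runSegm cfs 12000 26000 52000 clev 0 (0, 1328) (-532, 1690) 782 part1_15 = true := by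
  decide +kernel

/-- subdivision 1_16 -/
def part1_16 : List ℕ :=
  [820, 825, 833, 844]

theorem chk1_16 : runSegm cfs 12000 26000 52000 clev 0 (0, 1328) (-532, 1690) 814 part1_16 = true := by
  decide +kernel

/-- subdivision 1_17 -/
def part1_17 : List ℕ :=
  [850, 855, 865, 873]

theorem chk1_17 : runSegm cfs 12000 26000 52000 clev 0 (0, 1328) (-532, 1690) 844 part1_17 = true := by
  decide +kernel

/-- subdivision 1_18 -/
def part1_18 : List ℕ :=
  [881, 886, 898, 904]

theorem chk1_18 : runSegm cfs 12000 26000 52000 clev 0 (0, 1328) (-532, 1690) 873 part1_18 = true := by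
  decide +kernel

/-- subdivision 1_19 -/
def part1_19 : List ℕ :=
  [909, 918, 927, 933]

theorem chk1_19 : runSegm cfs 12000 26000 52000 clev 0 (0, 1328) (-532, 1690) 904 part1_19 = true := by
  decide +kernel

end Vale.Agent.P021.Det.Q
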