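import Vale.Agent.P021Q.Data

namespace Vale.Agent.P021.Det.Q

open Vale.Agent.P021.Det

set_option maxRecDepth 100000

/-- subdivision 1_20 -/
def part1_20 : List ℕ :=
  [938, 951, 956, 962]

theorem chk1_20 : runSegm cfs 12000 26000 52000 clev 0 (0, 1328) (-532, 1690) 933 part1_20 = true := by
  decide +kernel

/-- subdivision 1_21 -/
def part1_21 : List ℕ :=
  [970, 981, 986, 992]

theorem chk1_21 : runSegm cfs 12000 26000 52000 clev 0 (0, 1328) (-532, 1690) 962 part1_21 = true := by
  decide +kernel

/-- subdivision 1_22 -/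
def part1_22 : List ℕ :=
  [1003, 1008, 1015, 1024]

theorem chk1_22 : runSegm cfs 12000 26000 52000 clev 0 (0, 1328) (-532, 1690) 992 part1_22 = true := by
  decide +kernel

/-- subdivision 2_0 -/
def part2_0 : List ℕ :=
  [9, 13, 19, 27]

theorem chk2_0 : runSegm cfs 12000 26000 52000 clev 0 (-532, 1690) (-1024, 2048) 0 part2_0 = true := by
  decide +kernel

/-- subdivision 2_1 -/
def part2_1 : List ℕ :=
  [36, 45, 56, 63]

theorem chk2_1 : runSegm cfs 12000 26000 52000 clev 0 (-532, 1690) (-1024, 2048) 27 part2_1 = true := by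
  decide +kernel

/-- subdivision 2_2 -/
def part2_2 : List ℕ :=
  [68, 73, 82, 90]

theorem chk2_2 : runSegm cfs 12000 26000 52000 clev 0 (-532, 1690) (-1024, 2048) 63 part2_2 = true := by
  decide +kernel

/-- subdivision 2_3 -/
def part2_3 : List ℕ :=
  [97, 102, 116, 121]

theorem chk2_3 : runSegm cfs 12000 26000 52000 clev 0 (-532, 1690) (-1024, 2048) 90 part2_3 = true := by
  decide +kernel

/-- subdivision 2_4 -/
def part2_4 : List ℕ :=
  [127, 137, 144, 151]

theorem chk2_4 : runSegm cfs 12000 26000 52000 clev 0 (-532, 1690) (-1024, 2048) 121 part2_4 = true := by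
  decide +kernel

/-- subdivision 2_5 -/
def part2_5 : List ℕ :=
  [157, 171, 177, 183]

theorem chk2_5 : runSegm cfs 12000 26000 52000 clev 0 (-532, 1690) (-1024, 2048) 151 part2_5 = true := by
  decide +kernel

end Vale.Agent.P021.Det.Q
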