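import Vale.Agent.P021Q.Data

namespace Vale.Agent.P021.Det.Q

open Vale.Agent.P021.Det

set_option maxRecDepth 100000

/-- subdivision 2_6 -/
def part2_6 : List ℕ :=
  [196, 203, 209, 222]

theorem chk2_6 : runSegm cfs 12000 26000 52000 clev 0 (-532, 1690) (-1024, 2048) 183 part2_6 = true := by
  decide +kernel

/-- subdivision 2_7 -/
def part2_7 : List ℕ :=
  [227, 233, 242, 250]

theorem chk2_7 : runSegm cfs 12000 26000 52000 clev 0 (-532, 1690) (-1024, 2048) 222 part2_7 = true := by
  decide +kernel

/-- subdivision 2_8 -/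
def part2_8 : List ℕ :=
  [255, 260, 268, 277]

theorem chk2_8 : runSegm cfs 12000 26000 52000 clev 0 (-532, 1690) (-1024, 2048) 250 part2_8 = true := by
  decide +kernel

/-- subdivision 2_9 -/
def part2_9 : List ℕ :=
  [284, 290, 306, 312]

theorem chk2_9 : runSegm cfs 12000 26000 52000 clev 0 (-532, 1690) (-1024, 2048) 277 part2_9 = true := by
  decide +kernel

/-- subdivision 2_10 -/
def part2_10 : List ℕ :=
  [318, 330, 335, 342]

theorem chk2_10 : runSegm cfs 12000 26000 52000 clev 0 (-532, 1690) (-1024, 2048) 312 part2_10 = true := by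
  decide +kernel

/-- subdivision 2_11 -/
def part2_11 : List ℕ :=
  [348, 362, 368, 375]

theorem chk2_11 : runSegm cfs 12000 26000 52000 clev 0 (-532, 1690) (-1024, 2048) 342 part2_11 = true := by
  decide +kernel

/-- subdivision 2_12 -/
def part2_12 : List ℕ :=
  [381, 394, 401, 410]

theorem chk2_12 : runSegm cfs 12000 26000 52000 clev 0 (-532, 1690) (-1024, 2048) 375 part2_12 = true := by
  decide +kernel

/-- subdivision 2_13 -/
def part2_13 : List ℕ :=
  [428, 438, 449, 461]

theorem chk2_13 : runSegm cfs 12000 26000 52000 clev 0 (-532, 1690) (-1024, 2048) 410 part2_13 = true := by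
  decide +kernel

/-- subdivision 2_14 -/
def part2_14 : List ℕ :=
  [484, 511, 574, 720]

theorem chk2_14 : runSegm cfs 12000 26000 52000 clev 0 (-532, 1690) (-1024, 2048) 461 part2_14 = true := by
  decide +kernel

end Vale.Agent.P021.Det.Q
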