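import Vale.Agent.P021Q.Data

namespace Vale.Agent.P021.Det.Q

open Vale.Agent.P021.Det

set_option maxRecDepth 100000

/-- subdivision 2_15 -/
def part2_15 : List ℕ :=
  [1024]

theorem chk2_15 : runSegm cfs 12000 26000 52000 clev 0 (-532, 1690) (-1024, 2048) 720 part2_15 = true := by
  decide +kernel

/-- subdivision 3_0 -/
def part3_0 : List ℕ :=
  [49, 167, 221, 256]

theorem chk3_0 : runSegm cfs 12000 26000 52000 clev 689447108608 (8627, 0) (8397, 819) 0 part3_0 = true := by
  decide +kernel

/-- subdivision 3_1 -/
def part3_1 : List ℕ :=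
  [292, 335, 447, 490]

theorem chk3_1 : runSegm cfs 12000 26000 52000 clev 689447108608 (8627, 0) (8397, 819) 256 part3_1 = true := by
  decide +kernel

/-- subdivision 3_2 -/
def part3_2 : List ℕ :=
  [536, 584, 711, 761]

theorem chk3_2 : runSegm cfs 12000 26000 52000 clev 689447108608 (8627, 0) (8397, 819) 490 part3_2 = true := by
  decide +kernel

/-- subdivision 3_3 -/
def part3_3 : List ℕ :=
  [818, 895, 974, 1023]

theorem chk3_3 : runSegm cfs 12000 26000 52000 clev 689447108608 (8627, 0) (8397, 819) 761 part3_3 = true := by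
  decide +kernel

/-- subdivision 3_4 -/
def part3_4 : List ℕ :=
  [1024]

theorem chk3_4 : runSegm cfs 12000 26000 52000 clev 689447108608 (8627, 0) (8397, 819) 1023 part3_4 = true := by
  decide +kernel

/-- subdivision 4_0 -/
def part4_0 : List ℕ :=
  [24, 78, 105, 139]

theorem chk4_0 : runSegm cfs 12000 26000 52000 clev 689447108608 (8397, 819) (8090, 2560) 0 part4_0 = true := by
  decide +kernel

/-- subdivision 4_1 -/
def part4_1 : List ℕ :=
  [184, 216, 247, 310]

theorem chk4_1 : runSegm cfs 12000 26000 52000 clev 689447108608 (8397, 819) (8090, 2560) 139 part4_1 = true := by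
  decide +kernel

/-- subdivision 4_2 -/
def part4_2 : List ℕ :=
  [344, 391, 459, 630]

theorem chk4_2 : runSegm cfs 12000 26000 52000 clev 689447108608 (8397, 819) (8090, 2560) 310 part4_2 = true := by
  decide +kernel

end Vale.Agent.P021.Det.Q
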