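import Vale.Agent.P021Q.Data

namespace Vale.Agent.P021.Det.Q

open Vale.Agent.P021.Det

set_option maxRecDepth 100000

/-- subdivision 4_3 -/
def part4_3 : List ℕ :=
  [1024]

theorem chk4_3 : runSegm cfs 12000 26000 52000 clev 689447108608 (8397, 819) (8090, 2560) 630 part4_3 = true := by
  decide +kernel

/-- subdivision 5_0 -/
def part5_0 : List ℕ :=
  [640, 1024]

theorem chk5_0 : runSegm cfs 12000 26000 52000 clev 689447108608 (8090, 2560) (5632, 4096) 0 part5_0 = true := by
  decide +kernel

/-- subdivision 6_0 -/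
def part6_0 : List ℕ :=
  [1024]

theorem chk6_0 : runSegm cfs 12000 26000 52000 clev 689447108608 (5632, 4096) (3072, 4608) 0 part6_0 = true := by
  decide +kernel

/-- subdivision 7_0 -/
def part7_0 : List ℕ :=
  [878, 1024]

theorem chk7_0 : runSegm cfs 12000 26000 52000 clev 689447108608 (3072, 4608) (-2048, 0) 0 part7_0 = true := by
  decide +kernel

end Vale.Agent.P021.Det.Q
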