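import Vale.Agent.P021Q.Chk0
import Vale.Agent.P021Q.Chk1
import Vale.Agent.P021Q.Chk2
import Vale.Agent.P021Q.Chk3
import Vale.Agent.P021Q.Chk4
import Vale.Agent.P021Q.Chk5
import Vale.Agent.P021Q.Chk6
import Vale.Agent.P021Q.Chk7

open Polynomial

namespace Vale.Agent.P021.Det.Q

open Vale.Agent.P021.Det

set_option maxRecDepth 100000

/-- subdivision 0 -/
def part0 : List ℕ :=
  part0_0 ++ (part0_1 ++ (part0_2 ++ (part0_3 ++ (part0_4 ++ (part0_5 ++ (part0_6 ++ (part0_7 ++ (part0_8 ++ (part0_9 ++ (part0_10 ++ (part0_11 ++ (part0_12 ++ (part0_13 ++ (part0_14 ++ (part0_15)))))))))))))))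

theorem chk0 : runSegm cfs 12000 26000 52000 clev 0 (0, 0) (0, 1328) 0 part0 = true :=
  runSegm_app chk0_0 (by decide) (runSegm_app chk0_1 (by decide) (runSegm_app chk0_2 (by decide) (runSegm_app chk0_3 (by decide) (runSegm_app chk0_4 (by decide) (runSegm_app chk0_5 (by decide) (runSegm_app chk0_6 (by decide) (runSegm_app chk0_7 (by decide) (runSegm_app chk0_8 (by decide) (runSegm_app chk0_9 (by decide) (runSegm_app chk0_10 (by decide) (runSegm_app chk0_11 (by decide) (runSegm_app chk0_12 (by decide) (runSegm_app chk0_13 (by decide) (runSegm_app chk0_14 (by decide) (chk0_15)))))))))))))))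

/-- subdivision 1 -/
def part1 : List ℕ :=
  part1_0 ++ (part1_1 ++ (part1_2 ++ (part1_3 ++ (part1_4 ++ (part1_5 ++ (part1_6 ++ (part1_7 ++ (part1_8 ++ (part1_9 ++ (part1_10 ++ (part1_11 ++ (part1_12 ++ (part1_13 ++ (part1_14 ++ (part1_15 ++ (part1_16 ++ (part1_17 ++ (part1_18 ++ (part1_19 ++ (part1_20 ++ (part1_21 ++ (part1_22))))))))))))))))))))))

theorem chk1 : runSegm cfs 12000 26000 52000 clev 0 (0, 1328) (-532, 1690) 0 part1 = true :=
  runSegm_app chk1_0 (by decide) (runSegm_app chk1_1 (by decide) (runSegm_app chk1_2 (by decide) (runSegm_app chk1_3 (by decide) (runSegm_app chk1_4 (by decide) (runSegm_app chk1_5 (by decide) (runSegm_app chk1_6 (by decide) (runSegm_app chk1_7 (by decide) (runSegm_app chk1_8 (by decide) (runSegm_app chk1_9 (by decide) (runSegm_app chk1_10 (by decide) (runSegm_app chk1_11 (by decide) (runSegm_app chk1_12 (by decide) (runSegm_app chk1_13 (by decide) (runSegm_app chk1_14 (by decide) (runSegm_app chk1_15 (by decide) (runSegm_app chk1_16 (by decide) (runSegm_app chk1_17 (by decide)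 (runSegm_app chk1_18 (by decide) (runSegm_app chk1_19 (by decide) (runSegm_app chk1_20 (by decide) (runSegm_app chk1_21 (by decide) (chk1_22))))))))))))))))))))))

/-- subdivision 2 -/
def part2 : List ℕ :=
  part2_0 ++ (part2_1 ++ (part2_2 ++ (part2_3 ++ (part2_4 ++ (part2_5 ++ (part2_6 ++ (part2_7 ++ (part2_8 ++ (part2_9 ++ (part2_10 ++ (part2_11 ++ (part2_12 ++ (part2_13 ++ (part2_14 ++ (part2_15)))))))))))))))

theorem chk2 : runSegm cfs 12000 26000 52000 clev 0 (-532, 1690) (-1024, 2048) 0 part2 = true :=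
  runSegm_app chk2_0 (by decide) (runSegm_app chk2_1 (by decide) (runSegm_app chk2_2 (by decide) (runSegm_app chk2_3 (by decide) (runSegm_app chk2_4 (by decide) (runSegm_app chk2_5 (by decide) (runSegm_app chk2_6 (by decide) (runSegm_app chk2_7 (by decide) (runSegm_app chk2_8 (by decide) (runSegm_app chk2_9 (by decide) (runSegm_app chk2_10 (by decide) (runSegm_app chk2_11 (by decide) (runSegm_app chk2_12 (by decide) (runSegm_app chk2_13 (by decide) (runSegm_app chk2_14 (by decide) (chk2_15)))))))))))))))

/-- subdivision 3 -/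
def part3 : List ℕ :=
  part3_0 ++ (part3_1 ++ (part3_2 ++ (part3_3 ++ (part3_4))))

theorem chk3 : runSegm cfs 12000 26000 52000 clev 689447108608 (8627, 0) (8397, 819) 0 part3 = true :=
  runSegm_app chk3_0 (by decide) (runSegm_app chk3_1 (by decide) (runSegm_app chk3_2 (by decide) (runSegm_app chk3_3 (by decide) (chk3_4))))

/-- subdivision 4 -/
def part4 : List ℕ :=
  part4_0 ++ (part4_1 ++ (part4_2 ++ (part4_3)))

theorem chk4 : runSegm cfs 12000 26000 52000 clev 689447108608 (8397, 819) (8090, 2560) 0 part4 = true :=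
  runSegm_app chk4_0 (by decide) (runSegm_app chk4_1 (by decide) (runSegm_app chk4_2 (by decide) (chk4_3)))

/-- subdivision 5 -/
def part5 : List ℕ := part5_0

theorem chk5 : runSegm cfs 12000 26000 52000 clev 689447108608 (8090, 2560) (5632, 4096) 0 part5 = true :=
  chk5_0

/-- subdivision 6 -/
def part6 : List ℕ := part6_0

theorem chk6 : runSegm cfs 12000 26000 52000 clev 689447108608 (5632, 4096) (3072, 4608) 0 part6 = true :=
  chk6_0

/-- subdivision 7 -/
def part7 : List ℕ := part7_0

theorem chk7 : runSegm cfs 12000 26000 52000 clev 689447108608 (3072, 4608) (-2048, 0) 0 part7 = true :=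
  chk7_0

/-- the path for the integral -/
noncomputable def S1 : Set ℂ :=
  segment ℝ (pnt10 (0, 0)) (pnt10 (0, 1328)) ∪
    (segment ℝ (pnt10 (0, 1328)) (pnt10 (-532, 1690)) ∪
    (segment ℝ (pnt10 (-532, 1690)) (pnt10 (-1024, 2048))))

/-- the polygon around the pole -/
noncomputable def T1 : Set ℂ :=
  segment ℝ (pnt10 (8627, 0)) (pnt10 (8397, 819)) ∪
    (segment ℝ (pnt10 (8397, 819)) (pnt10 (8090, 2560)) ∪
    (segment ℝ (pnt10 (8090, 2560)) (pnt10 (5632, 4096)) ∪
    (segment ℝ (pnt10 (5632, 4096)) (pnt10 (3072, 4608)) ∪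
    (segment ℝ (pnt10 (3072, 4608)) (pnt10 (-2048, 0))))))

/-- the vertices of the path -/
noncomputable def l1 : List ℂ := [pnt10 (0, 0), pnt10 (0, 1328), pnt10 (-532, 1690), pnt10 (-1024, 2048)]

/-- the vertices of the polygon around the pole -/
noncomputable def l2 : List ℂ :=
  [pnt10 (8627, 0), pnt10 (8397, 819), pnt10 (8090, 2560), pnt10 (5632, 4096), pnt10 (3072, 4608), pnt10 (-2048, 0)]

theorem l1_path : PathIn S1 l1 :=
  ⟨Set.subset_union_left, (Set.subset_union_left).trans Set.subset_union_right, (Set.subset_union_right).trans Set.subset_union_right, trivial⟩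

theorem l2_path : PathIn T1 l2 :=
  ⟨Set.subset_union_left, (Set.subset_union_left).trans Set.subset_union_right, ((Set.subset_union_left).trans Set.subset_union_right).trans Set.subset_union_right, (((Set.subset_union_left).trans Set.subset_union_right).trans Set.subset_union_right).trans Set.subset_union_right, (((Set.subset_union_right).trans Set.subset_union_right).trans Set.subset_union_right).trans Set.subset_union_right, trivial⟩

theorem S1_bounded : Bornology.IsBounded S1 :=
  (segment_bounded _ _).union ((segment_bounded _ _).union (segment_bounded _ _))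

theorem T1_bounded : Bornology.IsBounded T1 :=
  (segment_bounded _ _).union ((segment_bounded _ _).union ((segment_bounded _ _).union ((segment_bounded _ _).union (segment_bounded _ _))))

theorem good_S1 : ∀ s ∈ S1, GoodC cfs 12000 26000 52000 clev 0 s := by
  rintro s (hs | hs | hs)
  · exact runSegm_segment (by decide) (by decide) chk0 s hs
  · exact runSegm_segment (by decide) (by decide) chk1 s hs
  · exact runSegm_segment (by decide) (by decide) chk2 s hs

theorem good_T1 : ∀ s ∈ T1, GoodC cfs 12000 26000 52000 clev 689447108608 s := by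
  rintro s (hs | hs | hs | hs | hs)
  · exact runSegm_segment (by decide) (by decide) chk3 s hs
  · exact runSegm_segment (by decide) (by decide) chk4 s hs
  · exact runSegm_segment (by decide) (by decide) chk5 s hs
  · exact runSegm_segment (by decide) (by decide) chk6 s hs
  · exact runSegm_segment (by decide) (by decide) chk7 s hs

theorem clev_mem (j : ℕ) (hj : j ≤ 20) : clev.getD j ([], 0) ∈ clev := by
  have h : j < clev.length := by
    have : clev.length = 21 := by decide
    omega
  rw [List.getD_eq_getElem _ _ h]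
  exact List.getElem_mem h

theorem clev_len (j : ℕ) (hj : j ≤ 20) : (clev.getD j ([], 0)).1.length ≤ cfs.length := by
  interval_cases j <;> decide

/-- the certificate -/
noncomputable def cert : Cert 20000 24000 52000 104000 20 (657508 * Real.log 2) S1 T1 where
  F j := prodF cfs (clev.getD j ([], 0)).1
  d j := cdeg.getD j 0
  L j := ((clev.getD j ([], 0)).2 : ℝ) * cu
  monic j _ := prodF_monic _ _
  deg j hj := by
    rw [prodF_natDegree]
    interval_cases j <;> decide +kernel
  d_zero := by decide
  d_last := by decide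
  d_lt j hj := by
    interval_cases j <;> decide
  path j hj s hs := by
    have h := good_S1 s hs _ (clev_mem j hj) (clev_len j hj)
    simpa using h
  circ j hj s hs := by
    have h := good_T1 s hs _ (clev_mem j hj) (clev_len j hj)
    have e : ((clev.getD j ([], 0)).2 : ℝ) * cu + 657508 * Real.log 2 =
        (((clev.getD j ([], 0)).2 : ℝ) + ((689447108608 : ℤ) : ℝ)) * cu := by
      unfold cu
      push_cast
      ring
    rw [e]
    exact h

theorem cert_total : cert.total = -(80594810375 / 16) * Real.log 2 := by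
  unfold Cert.total
  simp only [cert, Finset.sum_range_succ, Finset.sum_range_zero, cdeg, clev,
    List.getD_cons_zero, List.getD_cons_succ, cu]
  push_cast
  ring

theorem betBound_T1 : BetBound T1 := by
  refine betBound_polygon l2 (-2) (8627 / 1024) ?_ ?_ (by norm_num) (by norm_num) (by norm_num) T1
    l2_path ⟨?_, ?_, ?_, ?_, ?_, trivial⟩
  · simp [l2, pnt10]
    norm_num
  · simp [l2, pnt10]
    norm_num
  · refine BT_seg ?_ ?_ ?_ ?_ (Or.inl ⟨?_, ?_⟩) <;> simp [pnt10] <;> norm_num
  · refine BT_seg ?_ ?_ ?_ ?_ (Or.inr (Or.inl ⟨?_, ?_⟩)) <;> simp [pnt10] <;> norm_num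
  · refine BT_seg ?_ ?_ ?_ ?_ (Or.inr (Or.inl ⟨?_, ?_⟩)) <;> simp [pnt10] <;> norm_num
  · refine BT_seg ?_ ?_ ?_ ?_ (Or.inr (Or.inl ⟨?_, ?_⟩)) <;> simp [pnt10] <;> norm_num
  · refine BT_seg ?_ ?_ ?_ ?_ (Or.inr (Or.inr ⟨?_, ?_⟩)) <;> simp [pnt10] <;> norm_num

theorem bound : irrationalityExponent Real.pi ≤ ((6.0072 : ℝ) : EReal) := by
  have hl2 := Real.log_two_gt_d9
  have hl2' := Real.log_two_lt_d9
  refine final_bound3 4000 (by norm_num) cert (80594810375 / 16 * Real.log 2) 6.0072
    (by rw [cert_total]; linarith) (by positivity) betBound_T1 T1_bounded l1 0 ?_ ?_ ?_ l1_path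
    S1_bounded (by norm_num) ?_ ?_
  · simp [l1, pnt10_zero]
  · simp [l1, pnt10_e]
  · intro v hv
    simp only [l1, List.mem_cons, List.not_mem_nil, or_false] at hv
    rcases hv with rfl | rfl | rfl | rfl <;> simp [pnt10] <;> norm_num
  · norm_num
    linarith
  · norm_num
    nlinarith

end Vale.Agent.P021.Det.Q
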