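import Vale.Agent.P021Q.Data

namespace Vale.Agent.P021.Det.Q

open Vale.Agent.P021.Det

set_option maxRecDepth 100000

/-- subdivision 0_0 -/
def part0_0 : List ℕ :=
  [350, 482, 534, 559]

theorem chk0_0 : runSegm cfs 12000 26000 52000 clev 0 (0, 0) (0, 1328) 0 part0_0 = true := by
  decide +kernel

/-- subdivision 0_1 -/
def part0_1 : List ℕ :=
  [571, 580, 590, 606]

theorem chk0_1 : runSegm cfs 12000 26000 52000 clev 0 (0, 0) (0, 1328) 559 part0_1 = true := by
  decide +kernel

/-- subdivision 0_2 -/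
def part0_2 : List ℕ :=
  [613, 620, 630, 638]

theorem chk0_2 : runSegm cfs 12000 26000 52000 clev 0 (0, 0) (0, 1328) 606 part0_2 = true := by
  decide +kernel

/-- subdivision 0_3 -/
def part0_3 : List ℕ :=
  [643, 649, 660, 666]

theorem chk0_3 : runSegm cfs 12000 26000 52000 clev 0 (0, 0) (0, 1328) 638 part0_3 = true := by
  decide +kernel

/-- subdivision 0_4 -/
def part0_4 : List ℕ :=
  [674, 681, 690, 696]

theorem chk0_4 : runSegm cfs 12000 26000 52000 clev 0 (0, 0) (0, 1328) 666 part0_4 = true := by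
  decide +kernel

/-- subdivision 0_5 -/
def part0_5 : List ℕ :=
  [701, 714, 719, 724]

theorem chk0_5 : runSegm cfs 12000 26000 52000 clev 0 (0, 0) (0, 1328) 696 part0_5 = true := by
  decide +kernel

/-- subdivision 0_6 -/
def part0_6 : List ℕ :=
  [734, 740, 745, 749]

theorem chk0_6 : runSegm cfs 12000 26000 52000 clev 0 (0, 0) (0, 1328) 724 part0_6 = true := by
  decide +kernel

/-- subdivision 0_7 -/
def part0_7 : List ℕ :=
  [760, 764, 771, 778]

theorem chk0_7 : runSegm cfs 12000 26000 52000 clev 0 (0, 0) (0, 1328) 749 part0_7 = true := by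
  decide +kernel

/-- subdivision 0_8 -/
def part0_8 : List ℕ :=
  [787, 791, 796, 805]

theorem chk0_8 : runSegm cfs 12000 26000 52000 clev 0 (0, 0) (0, 1328) 778 part0_8 = true := by
  decide +kernel

end Vale.Agent.P021.Det.Q
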